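import Mathlib

/-!
# P226 pool (helper20, backup copy of job T1): the variational bound

For a measurable partition `A i` of `R^d` with Gaussian moments `z i = E [x; A i]`,
`∑ i, ‖z i‖ ^ 2 ≤ E max_i ⟨x, z i⟩`.
-/

namespace Vale.Agent.Lib.P226.H20

open MeasureTheory ProbabilityTheory

theorem sum_sq_le_integral_sup (d m : ℕ) (A : Fin (m + 1) → Set (EuclideanSpace ℝ (Fin d)))
    (hA : ∀ i, MeasurableSet (A i)) (hdisj : ∀ i j, i ≠ j → Disjoint (A i) (A j))
    (hcover : ⋃ i, A i = Set.univ) :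
    ∑ i, ‖∫ x in A i, x ∂(stdGaussian (EuclideanSpace ℝ (Fin d)))‖ ^ 2
      ≤ ∫ x, Finset.univ.sup' Finset.univ_nonempty
          (fun i => inner ℝ x (∫ x in A i, x ∂(stdGaussian (EuclideanSpace ℝ (Fin d)))))
          ∂(stdGaussian (EuclideanSpace ℝ (Fin d))) := by
  obtain ⟨μ, hμ⟩ : ∃ μ : Measure (EuclideanSpace ℝ (Fin d)),
      μ = stdGaussian (EuclideanSpace ℝ (Fin d)) := ⟨_, rfl⟩
  rw [← hμ]
  have hid : Integrable (fun y : EuclideanSpace ℝ (Fin d) => y) μ := by
    rw [hμ]; exact IsGaussian.integrable_id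
  obtain ⟨z, hz⟩ : ∃ z : Fin (m + 1) → EuclideanSpace ℝ (Fin d),
      z = fun i => ∫ x in A i, x ∂μ := ⟨_, rfl⟩
  have hzi : ∀ i, ∫ x in A i, x ∂μ = z i := fun i => by rw [hz]
  simp only [hzi]
  have hint : ∀ i, Integrable (fun y : EuclideanSpace ℝ (Fin d) => inner ℝ y (z i)) μ :=
    fun i => hid.inner_const (z i)
  obtain ⟨f, hf⟩ : ∃ f : EuclideanSpace ℝ (Fin d) → ℝ,
      f = fun x => Finset.univ.sup' Finset.univ_nonempty (fun i => inner ℝ x (z i)) := ⟨_, rfl⟩
  have hfx : ∀ x, Finset.univ.sup' Finset.univ_nonempty (fun i => inner ℝ x (z i)) = f x :=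
    fun x => by rw [hf]
  simp only [hfx]
  have hfmeas : Measurable f := by
    have e : f = Finset.univ.sup' Finset.univ_nonempty
        (fun (i : Fin (m + 1)) (x : EuclideanSpace ℝ (Fin d)) => inner ℝ x (z i)) := by
      funext x
      rw [Finset.sup'_apply, hf]
    rw [e]
    exact Finset.measurable_sup' _ (fun i _ => by fun_prop)
  have hge : ∀ x i, inner ℝ x (z i) ≤ f x := by
    intro x i
    rw [← hfx]
    exact Finset.le_sup' (fun i => inner ℝ x (z i)) (Finset.mem_univ i)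
  have hfint : Integrable f μ := by
    refine Integrable.mono' (g := fun x => ∑ i, ‖inner ℝ x (z i)‖)
      (integrable_finsetSum _ (fun i _ => (hint i).norm)) hfmeas.aestronglyMeasurable
      (Filter.Eventually.of_forall fun x => ?_)
    obtain ⟨i, -, hi⟩ := Finset.exists_mem_eq_sup' Finset.univ_nonempty
      (fun i => inner ℝ x (z i))
    rw [← hfx, hi]
    exact Finset.single_le_sum (f := fun i => ‖inner ℝ x (z i)‖) (fun j _ => norm_nonneg _)
      (Finset.mem_univ i)
  have hcell : ∀ i, ‖z i‖ ^ 2 = ∫ x in A i, inner ℝ x (z i) ∂μ := by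
    intro i
    calc ‖z i‖ ^ 2 = inner ℝ (z i) (z i) := (real_inner_self_eq_norm_sq (z i)).symm
      _ = inner ℝ (z i) (∫ x in A i, x ∂μ) := by rw [hzi]
      _ = ∫ x in A i, inner ℝ (z i) x ∂μ := (integral_inner hid.restrict (z i)).symm
      _ = ∫ x in A i, inner ℝ x (z i) ∂μ :=
          integral_congr_ae (Filter.Eventually.of_forall fun y => real_inner_comm _ _)
  calc ∑ i, ‖z i‖ ^ 2 = ∑ i, ∫ x in A i, inner ℝ x (z i) ∂μ :=
        Finset.sum_congr rfl (fun i _ => hcell i)
    _ ≤ ∑ i, ∫ x in A i, f x ∂μ :=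
        Finset.sum_le_sum fun i _ => setIntegral_mono_on (hint i).integrableOn
          hfint.integrableOn (hA i) (fun x _ => hge x i)
    _ = ∫ x in ⋃ i, A i, f x ∂μ :=
        (integral_iUnion_fintype hA (fun i j hij => hdisj i j hij)
          (fun i => hfint.integrableOn)).symm
    _ = ∫ x, f x ∂μ := by rw [hcover, setIntegral_univ]

end Vale.Agent.Lib.P226.H20
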