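import Mathlib

/-!
# P226 pool (helper20, backup copy of job T2): Voronoi partition and Cauchy-Schwarz

For finitely many vectors `v i` of `R^d` there is a measurable partition `V i` of `R^d` (the
Voronoi cells `{y | ⟨y, v i⟩ = max_j ⟨y, v j⟩}`, made disjoint) such that
`E max_i ⟨y, v i⟩ ≤ sqrt (∑ i, ‖E [y; V i]‖ ^ 2) * sqrt (∑ i, ‖v i‖ ^ 2)` for the standard
Gaussian measure.
-/

namespace Vale.Agent.Lib.P226.H20

open MeasureTheory ProbabilityTheory

theorem exists_partition_integral_sup_le (d m : ℕ) (v : Fin (m + 1) → EuclideanSpace ℝ (Fin d)) :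
    ∃ V : Fin (m + 1) → Set (EuclideanSpace ℝ (Fin d)), (∀ i, MeasurableSet (V i)) ∧
      (∀ i j, i ≠ j → Disjoint (V i) (V j)) ∧ ⋃ i, V i = Set.univ ∧
      ∫ y, Finset.univ.sup' Finset.univ_nonempty (fun i => inner ℝ y (v i))
          ∂(stdGaussian (EuclideanSpace ℝ (Fin d)))
        ≤ Real.sqrt (∑ i, ‖∫ x in V i, x ∂(stdGaussian (EuclideanSpace ℝ (Fin d)))‖ ^ 2)
          * Real.sqrt (∑ i, ‖v i‖ ^ 2) := by
  classical
  obtain ⟨U, hU⟩ : ∃ U : Fin (m + 1) → Set (EuclideanSpace ℝ (Fin d)),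
      U = fun i => {y | ∀ j, inner ℝ y (v j) ≤ inner ℝ y (v i)} := ⟨_, rfl⟩
  have hUmem : ∀ i y, y ∈ U i ↔ ∀ j, inner ℝ y (v j) ≤ inner ℝ y (v i) := by
    intro i y; rw [hU]; rfl
  have hUmeas : ∀ i, MeasurableSet (U i) := by
    intro i
    have e : U i = ⋂ j, {y : EuclideanSpace ℝ (Fin d) | inner ℝ y (v j) ≤ inner ℝ y (v i)} := by
      ext y; rw [hUmem]; simp
    rw [e]
    refine MeasurableSet.iInter fun j => ?_
    exact (isClosed_le (by fun_prop) (by fun_prop)).measurableSet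
  obtain ⟨V, hV⟩ : ∃ V : Fin (m + 1) → Set (EuclideanSpace ℝ (Fin d)),
      V = fun i => U i \ ⋃ j ∈ {j : Fin (m + 1) | j < i}, U j := ⟨_, rfl⟩
  have hVmem : ∀ i y, y ∈ V i ↔ y ∈ U i ∧ ∀ j, j < i → y ∉ U j := by
    intro i y; rw [hV]; simp
  have hVmeas : ∀ i, MeasurableSet (V i) := by
    intro i
    rw [hV]
    refine (hUmeas i).diff ?_
    exact MeasurableSet.biUnion (Set.to_countable _) (fun j _ => hUmeas j)
  have hdisj : ∀ i j, i ≠ j → Disjoint (V i) (V j) := by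
    intro i j hij
    rw [Set.disjoint_left]
    intro y hyi hyj
    rw [hVmem] at hyi hyj
    rcases lt_or_gt_of_ne hij with h | h
    · exact hyj.2 i h hyi.1
    · exact hyi.2 j h hyj.1
  have hcover : ⋃ i, V i = Set.univ := by
    ext y
    simp only [Set.mem_iUnion, Set.mem_univ, iff_true]
    obtain ⟨i0, -, hi0⟩ := Finset.exists_max_image Finset.univ (fun i => inner ℝ y (v i))
      Finset.univ_nonempty
    have hne : (Finset.univ.filter (fun i => y ∈ U i)).Nonempty := by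
      refine ⟨i0, ?_⟩
      rw [Finset.mem_filter, hUmem]
      exact ⟨Finset.mem_univ _, fun j => hi0 j (Finset.mem_univ j)⟩
    refine ⟨(Finset.univ.filter (fun i => y ∈ U i)).min' hne, ?_⟩
    rw [hVmem]
    refine ⟨(Finset.mem_filter.1 (Finset.min'_mem _ hne)).2, fun j hj hyj => ?_⟩
    have h1 := Finset.min'_le (Finset.univ.filter (fun i => y ∈ U i)) j
      (Finset.mem_filter.2 ⟨Finset.mem_univ _, hyj⟩)
    exact absurd hj (not_lt.2 h1)
  refine ⟨V, hVmeas, hdisj, hcover, ?_⟩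
  obtain ⟨μ, hμ⟩ : ∃ μ : Measure (EuclideanSpace ℝ (Fin d)),
      μ = stdGaussian (EuclideanSpace ℝ (Fin d)) := ⟨_, rfl⟩
  rw [← hμ]
  have hid : Integrable (fun y : EuclideanSpace ℝ (Fin d) => y) μ := by
    rw [hμ]; exact IsGaussian.integrable_id
  have hint : ∀ i, Integrable (fun y : EuclideanSpace ℝ (Fin d) => inner ℝ y (v i)) μ :=
    fun i => hid.inner_const (v i)
  have hpt : ∀ y, Finset.univ.sup' Finset.univ_nonempty (fun i => inner ℝ y (v i))
      = ∑ i, (V i).indicator (fun y => inner ℝ y (v i)) y := by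
    intro y
    have hy : y ∈ ⋃ i, V i := by rw [hcover]; trivial
    obtain ⟨i, hi⟩ := Set.mem_iUnion.1 hy
    rw [Finset.sum_eq_single i]
    · rw [Set.indicator_of_mem hi]
      apply le_antisymm
      · exact Finset.sup'_le _ _ (fun j _ => ((hUmem i y).1 ((hVmem i y).1 hi).1) j)
      · exact Finset.le_sup' (fun i => inner ℝ y (v i)) (Finset.mem_univ i)
    · intro j _ hji
      apply Set.indicator_of_notMem
      intro hj
      exact Set.disjoint_left.1 (hdisj j i hji) hj hi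
    · intro h; exact absurd (Finset.mem_univ i) h
  have hcell : ∀ i, ∫ y in V i, inner ℝ y (v i) ∂μ = inner ℝ (∫ y in V i, y ∂μ) (v i) := by
    intro i
    calc ∫ y in V i, inner ℝ y (v i) ∂μ = ∫ y in V i, inner ℝ (v i) y ∂μ :=
          integral_congr_ae (Filter.Eventually.of_forall fun y => real_inner_comm _ _)
      _ = inner ℝ (v i) (∫ y in V i, y ∂μ) := integral_inner hid.restrict (v i)
      _ = inner ℝ (∫ y in V i, y ∂μ) (v i) := real_inner_comm _ _
  calc ∫ y, Finset.univ.sup' Finset.univ_nonempty (fun i => inner ℝ y (v i)) ∂μ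
      = ∫ y, ∑ i, (V i).indicator (fun y => inner ℝ y (v i)) y ∂μ :=
        integral_congr_ae (Filter.Eventually.of_forall hpt)
    _ = ∑ i, ∫ y, (V i).indicator (fun y => inner ℝ y (v i)) y ∂μ :=
        integral_finsetSum _ (fun i _ => (hint i).indicator (hVmeas i))
    _ = ∑ i, ∫ y in V i, inner ℝ y (v i) ∂μ :=
        Finset.sum_congr rfl (fun i _ => integral_indicator (hVmeas i))
    _ = ∑ i, inner ℝ (∫ y in V i, y ∂μ) (v i) := Finset.sum_congr rfl (fun i _ => hcell i)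
    _ ≤ ∑ i, ‖∫ y in V i, y ∂μ‖ * ‖v i‖ :=
        Finset.sum_le_sum fun i _ => real_inner_le_norm _ _
    _ ≤ Real.sqrt (∑ i, ‖∫ y in V i, y ∂μ‖ ^ 2) * Real.sqrt (∑ i, ‖v i‖ ^ 2) :=
        Real.sum_mul_le_sqrt_mul_sqrt _ _ _

end Vale.Agent.Lib.P226.H20
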